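import Vale.Agent.P281.Stmt

/-! P281: bounds for the Kodaira dimension. -/

namespace Vale.Agent.P281

open P272

variable {n : ℕ} {X : Type} [TopologicalSpace X] [ChartedSpace (E n) X]

theorem kod_le : kod n X ≤ (n : WithBot ℕ∞) := by
  refine iSup_le fun m => iSup_le fun _ => iSup_le fun N => iSup_le fun σ => iSup_le fun i =>
    iSup_le fun p => iSup_le fun _ => ?_
  have h : rk n X σ i p ≤ n :=
    (LinearMap.finrank_range_le _).trans_eq finrank_euclideanSpace_fin
  exact_mod_cast h

theorem kod_eq [Nonempty X] (h : CanAmple n X) : kod n X = (n : WithBot ℕ∞) := by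
  refine le_antisymm kod_le ?_
  obtain ⟨m, N, σ, hm, h1, -, h3⟩ := h
  obtain ⟨p⟩ := ‹Nonempty X›
  obtain ⟨i₀, h0⟩ := h1 p
  have hd : ∀ i, DifferentiableAt ℂ ((σ i).s p) (chartAt (E n) p p) := fun i =>
    ((σ i).hol p).differentiableAt (chart_target_mem_nhds (E n) p)
  have hr : rk n X σ i₀ p = n := by
    rw [rk, LinearMap.finrank_range_of_inj, finrank_euclideanSpace_fin]
    rw [injective_iff_map_eq_zero]
    intro a ha
    refine h3 p a (fderiv ℂ ((σ i₀).s p) (chartAt (E n) p p) a / (σ i₀).s p (chartAt (E n) p p))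
      fun i => ?_
    have e1 : ∀ i, HasFDerivAt (fun y => (σ i).s p y / (σ i₀).s p y) _ (chartAt (E n) p p) :=
      fun i => ((hd i).hasFDerivAt.fun_mul ((hasDerivAt_inv h0).comp_hasFDerivAt _
        (hd i₀).hasFDerivAt)).congr_of_eventuallyEq
          (Filter.Eventually.of_forall fun y => div_eq_mul_inv _ _)
    have e2 := congrFun ha i
    have e3 : fderiv ℂ (quo n X σ i₀ p) (chartAt (E n) p p) = _ := (hasFDerivAt_pi.2 e1).fderiv
    rw [e3] at e2
    simp only [ContinuousLinearMap.coe_coe, ContinuousLinearMap.pi_apply,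
      add_apply, smul_apply, smul_eq_mul,
      Function.comp_apply, Pi.zero_apply] at e2
    field_simp at e2 ⊢
    linear_combination e2
  refine le_iSup_of_le m (le_iSup_of_le hm (le_iSup_of_le (N + 1) (le_iSup_of_le σ
    (le_iSup_of_le i₀ (le_iSup_of_le p (le_iSup_of_le h0 ?_))))))
  rw [hr]

end Vale.Agent.P281
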