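import Vale.Agent.P281.StmtB

/-! P281: bounds for the Iitaka dimension of `r K + M`. -/

open Filter Topology

namespace Vale.Agent.P281

open P272 P270 P285

variable {n : ℕ} {X : Type} [TopologicalSpace X] [ChartedSpace (E n) X]

theorem kodC_le (M : LineB n X) (r : ℕ) : kodC M r ≤ (n : WithBot ℕ∞) := by
  refine iSup_le fun m => iSup_le fun _ => iSup_le fun N => iSup_le fun σ => iSup_le fun i =>
    iSup_le fun p => iSup_le fun _ => ?_
  have h : rkC σ i p ≤ n :=
    (LinearMap.finrank_range_le _).trans_eq finrank_euclideanSpace_fin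
  exact_mod_cast h

theorem kodC_eq (h : CanAmple n X) {M : LineB n X} (hM : Eff M) {r : ℕ} (hr : 1 ≤ r) :
    kodC M r = (n : WithBot ℕ∞) := by
  refine le_antisymm (kodC_le M r) ?_
  obtain ⟨m, N, σ, hm, h1, -, h3⟩ := h
  obtain ⟨s, p, hs⟩ := hM
  obtain ⟨i₀, h0⟩ := h1 p
  obtain ⟨r, rfl⟩ := Nat.exists_eq_add_of_le' hr
  have hsub : ∀ x, chartAt (E n) x '' M.U x ⊆ (chartAt (E n) x).target := by
    rintro x _ ⟨q, hq, rfl⟩
    exact (chartAt (E n) x).map_source (M.sub x hq)
  let τ : Fin (N + 1) → SecC M (m * (r + 1)) m := fun i =>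
    ⟨fun x y => (σ i).s x y * ((σ i₀).s x y ^ r * s.s x y ^ m),
      fun x => (((σ i).hol x).mono (hsub x)).mul
        (((((σ i₀).hol x).mono (hsub x)).pow r).mul ((s.hol x).pow m)),
      fun x x' q hx hx' => by
        rw [(σ i).compat x x' q (M.sub x hx) (M.sub x' hx'),
          (σ i₀).compat x x' q (M.sub x hx) (M.sub x' hx'), s.compat x x' q hx hx', trn, trn]
        ring⟩
  have hd : ∀ i, DifferentiableAt ℂ ((σ i).s p) (chartAt (E n) p p) := fun i =>
    ((σ i).hol p).differentiableAt (chart_target_mem_nhds (E n) p)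
  have hc : ContinuousAt (s.s p) (chartAt (E n) p p) := ((s.hol p).differentiableAt
    (((chartAt (E n) p).isOpen_image_of_subset_source (M.op p) (M.sub p)).mem_nhds
      ⟨p, M.mem p, rfl⟩)).continuousAt
  have hq : quoC τ i₀ p =ᶠ[𝓝 (chartAt (E n) p p)] quo n X σ i₀ p := by
    filter_upwards [hc.eventually_ne hs, (hd i₀).continuousAt.eventually_ne h0] with y a b
    funext i
    exact mul_div_mul_right _ _ (mul_ne_zero (pow_ne_zero r b) (pow_ne_zero m a))
  have hk : rkC τ i₀ p = n := by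
    rw [rkC, hq.fderiv_eq, LinearMap.finrank_range_of_inj, finrank_euclideanSpace_fin]
    rw [injective_iff_map_eq_zero]
    intro a ha
    refine h3 p a (fderiv ℂ ((σ i₀).s p) (chartAt (E n) p p) a / (σ i₀).s p (chartAt (E n) p p))
      fun i => ?_
    have e1 : ∀ i, HasFDerivAt (fun y => (σ i).s p y / (σ i₀).s p y) _ (chartAt (E n) p p) :=
      fun i => ((hd i).hasFDerivAt.fun_mul ((hasDerivAt_inv h0).comp_hasFDerivAt _
        (hd i₀).hasFDerivAt)).congr_of_eventuallyEq
          (Filter.Eventually.of_forall fun y => div_eq_mul_inv _ _)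
    have e2 := congrFun ha i
    have e3 : fderiv ℂ (quo n X σ i₀ p) (chartAt (E n) p p) = _ := (hasFDerivAt_pi.2 e1).fderiv
    rw [e3] at e2
    simp only [ContinuousLinearMap.coe_coe, ContinuousLinearMap.pi_apply,
      add_apply, smul_apply, smul_eq_mul, Function.comp_apply, Pi.zero_apply] at e2
    field_simp at e2 ⊢
    linear_combination e2
  refine le_iSup_of_le m (le_iSup_of_le hm (le_iSup_of_le (N + 1) (le_iSup_of_le τ
    (le_iSup_of_le i₀ (le_iSup_of_le p (le_iSup_of_le
      (mul_ne_zero h0 (mul_ne_zero (pow_ne_zero r h0) (pow_ne_zero m hs))) ?_))))))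
  rw [hk]

end Vale.Agent.P281
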