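import Vale.Agent.P272.F.StmtC

/-! Statement definitions for P281: the Kodaira dimension, fibrations. -/

open scoped Manifold

namespace Vale.Agent.P281

open P272

variable (n : ℕ) (X : Type) [TopologicalSpace X] [ChartedSpace (E n) X]

/-- The quotients `(σ i / σ i₀)_i` in the chart at `p`. -/
noncomputable def quo {m N : ℕ} (σ : Fin N → CanSec n X m) (i₀ : Fin N) (p : X) (y : E n)
    (i : Fin N) : ℂ := (σ i).s p y / (σ i₀).s p y

/-- The rank at `p` of the map `(σ i / σ i₀)_i` given by pluricanonical sections. -/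
noncomputable def rk {m N : ℕ} (σ : Fin N → CanSec n X m) (i₀ : Fin N) (p : X) : ℕ :=
  Module.finrank ℂ (LinearMap.range
    (fderiv ℂ (quo n X σ i₀ p) (chartAt (E n) p p)).toLinearMap)

/-- The Kodaira dimension: the maximal rank of a pluricanonical map, `⊥` if there is none. -/
noncomputable def kod : WithBot ℕ∞ :=
  ⨆ (m : ℕ) (_ : 1 ≤ m) (N : ℕ) (σ : Fin N → CanSec n X m) (i₀ : Fin N) (p : X)
    (_ : (σ i₀).s p (chartAt (E n) p p) ≠ 0), (rk n X σ i₀ p : WithBot ℕ∞)

/-- Brody hyperbolic: every entire curve is constant. -/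
def Brody : Prop := ∀ h : ℂ → X, MDifferentiable 𝓘(ℂ, ℂ) 𝓘(ℂ, E n) h → ∀ z w, h z = h w

variable {X} (m : ℕ) {Y : Type} [TopologicalSpace Y] [ChartedSpace (E m) Y]

/-- A holomorphic map between manifolds of dimensions `n` and `m`. -/
def Holo (f : X → Y) : Prop := MDifferentiable 𝓘(ℂ, E n) 𝓘(ℂ, E m) f

/-- A fibration: holomorphic, surjective, with connected fibres. -/
def IsFib (f : X → Y) : Prop :=
  Holo n m f ∧ Function.Surjective f ∧ ∀ y, IsConnected (f ⁻¹' {y})

/-- An injective holomorphic immersion. -/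
def IsEmb (f : X → Y) : Prop :=
  Holo n m f ∧ Function.Injective f ∧
    ∀ p, Function.Injective (mfderiv 𝓘(ℂ, E n) 𝓘(ℂ, E m) f p)

end Vale.Agent.P281
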