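import Vale.Agent.P281.Stmt
import Vale.Agent.P285.Stmt

/-! Statement definitions for P281: the Iitaka dimension of `r K + M`. -/

namespace Vale.Agent.P281

open P272 P270 P285

variable {n : ℕ} {X : Type} [TopologicalSpace X] [ChartedSpace (E n) X]

/-- The quotients `(σ i / σ i₀)_i` in the chart at `p`. -/
noncomputable def quoC {M : LineB n X} {a b N : ℕ} (σ : Fin N → SecC M a b) (i₀ : Fin N) (p : X)
    (y : E n) (i : Fin N) : ℂ := (σ i).s p y / (σ i₀).s p y

/-- The rank at `p` of the map `(σ i / σ i₀)_i`. -/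
noncomputable def rkC {M : LineB n X} {a b N : ℕ} (σ : Fin N → SecC M a b) (i₀ : Fin N)
    (p : X) : ℕ :=
  Module.finrank ℂ (LinearMap.range (fderiv ℂ (quoC σ i₀ p) (chartAt (E n) p p)).toLinearMap)

/-- The Iitaka dimension of `r K + M`: the maximal rank of a map given by sections of a multiple,
`⊥` if there is none. -/
noncomputable def kodC (M : LineB n X) (r : ℕ) : WithBot ℕ∞ :=
  ⨆ (m : ℕ) (_ : 1 ≤ m) (N : ℕ) (σ : Fin N → SecC M (m * r) m) (i₀ : Fin N) (p : X)
    (_ : (σ i₀).s p (chartAt (E n) p p) ≠ 0), (rkC σ i₀ p : WithBot ℕ∞)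

/-- `M` is effective: it has a nonzero holomorphic section. -/
def Eff (M : LineB n X) : Prop := ∃ (s : SecC M 0 1) (p : X), s.s p (chartAt (E n) p p) ≠ 0

/-- An injective holomorphic immersion: the differential in charts is injective. -/
def IsImm (n : ℕ) {X : Type} [TopologicalSpace X] [ChartedSpace (E n) X] (m : ℕ) {Y : Type}
    [TopologicalSpace Y] [ChartedSpace (E m) Y] (f : X → Y) : Prop :=
  Holo n m f ∧ Function.Injective f ∧ ∀ p a, fderiv ℂ
    (chartAt (E m) (f p) ∘ f ∘ (chartAt (E n) p).symm) (chartAt (E n) p p) a = 0 → a = 0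

end Vale.Agent.P281
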